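import Mathlib

/-!
# P032: a separation lemma of the plane (unicoherence)

`no_sep`: let `B`, `C` be closed sets covering the plane, `C` connected, `A ⊆ B` connected.  If
`B ∩ C` lies in the union of two disjoint closed sets `N`, `M`, then `A ∩ C` does not meet both.
Proof: the map `exp (± π i φ)`, `φ = 0` on `N`, `φ = 1` on `M`, lifts to the line.
-/

open Set Filter Topology Metric

noncomputable section

namespace Vale.Agent.P032.H671

/-- a continuous real function with `Circle.exp = 1` on a preconnected set is constant there -/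
theorem const_of_exp {A : Set ℂ} (hA : IsPreconnected A) {h : ℂ → ℝ} (hc : ContinuousOn h A)
    (he : ∀ x ∈ A, Circle.exp (h x) = 1) {p q : ℂ} (hp : p ∈ A) (hq : q ∈ A) : h p = h q := by
  have key : ∀ x ∈ A, ∃ n : ℤ, h x = n * (2 * Real.pi) := by
    intro x hx
    have h1 := he x hx
    rw [Circle.exp_eq_one] at h1
    exact h1
  have himg : IsPreconnected (h '' A) := hA.image h hc
  have hord := himg.ordConnected
  have main : ∀ x ∈ A, ∀ y ∈ A, ¬ h x < h y := by
    intro x hx y hy hlt
    obtain ⟨n, hn⟩ := key x hx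
    obtain ⟨m, hm⟩ := key y hy
    have hpi := Real.pi_pos
    have hnm : n < m := by
      by_contra hcon
      push Not at hcon
      have : (m : ℝ) ≤ n := by exact_mod_cast hcon
      rw [hn, hm] at hlt
      nlinarith
    have hnm1 : (n : ℝ) + 1 ≤ m := by exact_mod_cast hnm
    have hmid : h x + Real.pi ∈ h '' A := by
      refine hord.out (mem_image_of_mem h hx) (mem_image_of_mem h hy) ⟨by linarith, ?_⟩
      rw [hn, hm]
      nlinarith
    obtain ⟨w, hw, hwe⟩ := hmid
    obtain ⟨l, hl⟩ := key w hw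
    rw [hl, hn] at hwe
    have h2 : ((2 * l : ℤ) : ℝ) = ((2 * n + 1 : ℤ) : ℝ) := by
      have h3 : ((2 * l : ℤ) : ℝ) * Real.pi = ((2 * n + 1 : ℤ) : ℝ) * Real.pi := by
        push_cast
        linarith
      exact mul_right_cancel₀ hpi.ne' h3
    have h4 : 2 * l = 2 * n + 1 := by exact_mod_cast h2
    omega
  rcases lt_trichotomy (h p) (h q) with hlt | heq | hgt
  · exact absurd hlt (main p hp q hq)
  · exact heq
  · exact absurd hgt (main q hq p hp)

/-- **Separation lemma.** -/
theorem no_sep {A B C N M : Set ℂ} (hB : IsClosed B) (hC : IsClosed C) (hBC : B ∪ C = univ)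
    (hA : IsPreconnected A) (hAB : A ⊆ B) (hCc : IsPreconnected C) (hN : IsClosed N)
    (hM : IsClosed M) (hNM : Disjoint N M) (hsub : B ∩ C ⊆ N ∪ M) {p m : ℂ}
    (hpA : p ∈ A) (hpC : p ∈ C) (hpN : p ∈ N) (hmA : m ∈ A) (hmC : m ∈ C) (hmM : m ∈ M) :
    False := by
  classical
  obtain ⟨φ, h0, h1, -⟩ := exists_continuous_zero_one_of_isClosed hN hM hNM
  have hexp : Circle.exp (-Real.pi) = Circle.exp Real.pi := by
    have h2 := Circle.periodic_exp (-Real.pi)
    rw [← h2]
    congr 1
    ring
  have hagree : ∀ x ∈ B ∩ C, Circle.exp (-(Real.pi * φ x)) = Circle.exp (Real.pi * φ x) := by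
    intro x hx
    rcases hsub hx with hx | hx
    · have : φ x = 0 := h0 hx
      rw [this]; simp
    · have : φ x = 1 := h1 hx
      rw [this, mul_one]; exact hexp
  have hfr : ∀ x ∈ frontier C, x ∈ B ∩ C := by
    intro x hx
    have hxC : x ∈ C := hC.frontier_subset hx
    refine ⟨?_, hxC⟩
    have h2 : x ∈ closure Cᶜ := by
      rw [closure_compl]
      exact hx.2
    refine closure_minimal (fun y hy => ?_) hB h2
    have h3 : y ∈ B ∪ C := by rw [hBC]; exact mem_univ y
    exact h3.resolve_right hy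
  have hfc : Continuous (C.piecewise (fun x : ℂ => Circle.exp (-(Real.pi * φ x)))
      (fun x => Circle.exp (Real.pi * φ x))) := by
    refine Continuous.piecewise (fun x hx => hagree x (hfr x hx)) ?_ ?_
    · fun_prop
    · fun_prop
  obtain ⟨g, ⟨-, hg⟩, -⟩ := Circle.isCoveringMap_exp.existsUnique_continuousMap_lifts
    (⟨_, hfc⟩ : C(ℂ, Circle)) (0 : ℂ)
    (Classical.choose (Circle.exp_surjective
      ((⟨_, hfc⟩ : C(ℂ, Circle)) (0 : ℂ))))
    (Classical.choose_spec (Circle.exp_surjective
      ((⟨_, hfc⟩ : C(ℂ, Circle)) (0 : ℂ))))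
  have hgx : ∀ x, Circle.exp (g x) = C.piecewise (fun x : ℂ => Circle.exp (-(Real.pi * φ x)))
      (fun x => Circle.exp (Real.pi * φ x)) x := fun x => congrFun hg x
  have hgB : ∀ x ∈ B, Circle.exp (g x) = Circle.exp (Real.pi * φ x) := by
    intro x hx
    rw [hgx x]
    by_cases hxC : x ∈ C
    · rw [piecewise_eq_of_mem _ _ _ hxC]
      exact hagree x ⟨hx, hxC⟩
    · rw [piecewise_eq_of_notMem _ _ _ hxC]
  have hgC : ∀ x ∈ C, Circle.exp (g x) = Circle.exp (-(Real.pi * φ x)) := by
    intro x hx
    rw [hgx x, piecewise_eq_of_mem _ _ _ hx]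
  have e1 : g p - Real.pi * φ p = g m - Real.pi * φ m := by
    refine const_of_exp hA (h := fun x => g x - Real.pi * φ x) (by fun_prop) ?_ hpA hmA
    intro x hx
    have := hgB x (hAB hx)
    simp only [Circle.exp_sub, this, div_self']
  have e2 : g p + Real.pi * φ p = g m + Real.pi * φ m := by
    refine const_of_exp hCc (h := fun x => g x + Real.pi * φ x) (by fun_prop) ?_ hpC hmC
    intro x hx
    have := hgC x hx
    simp only [Circle.exp_add, this, Circle.exp_neg, inv_mul_cancel]
  have hp0 : φ p = 0 := h0 hpN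
  have hm1 : φ m = 1 := h1 hmM
  rw [hp0, hm1] at e1 e2
  have := Real.pi_pos
  linarith

end Vale.Agent.P032.H671
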