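import Vale.Agent.P032.H249.Hull
import Vale.Agent.P032.H671.Unicoh

/-!
# P032: the essential set is connected

`top` : a nonempty closed set `N` of the essential set `XX U` such that near every point of `N` all
points with two colours lie in `N` is the whole of `XX U` (frame `Irr U T`).
-/

open Set Filter Topology Metric

noncomputable section

namespace Vale.Agent.P032.H671

/-- a preconnected set which meets a set and its complement meets its frontier -/
theorem meet_frontier {X : Type*} [TopologicalSpace X] {V C : Set X} (hV : IsPreconnected V)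
    {x y : X} (hx : x ∈ V) (hxC : x ∈ C) (hy : y ∈ V) (hyC : y ∉ C) : ∃ p ∈ V, p ∈ frontier C := by
  by_contra hcon
  push Not at hcon
  have h1 : V ⊆ interior C ∪ (closure C)ᶜ := by
    intro z hz
    by_cases h2 : z ∈ closure C
    · left
      by_contra h3
      exact hcon z hz ⟨h2, h3⟩
    · exact Or.inr h2
  have hx' : x ∈ interior C := by
    rcases h1 hx with h | h
    · exact h
    · exact absurd (subset_closure hxC) h
  have hy' : y ∈ (closure C)ᶜ := by
    rcases h1 hy with h | h
    · exact absurd (interior_subset h) hyC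
    · exact h
  obtain ⟨z, -, hz1, hz2⟩ := hV (interior C) (closure C)ᶜ isOpen_interior
    isClosed_closure.isOpen_compl h1 ⟨x, hx, hx'⟩ ⟨y, hy, hy'⟩
  exact hz2 (subset_closure (interior_subset hz1))

theorem isClosed_comp {F : Set ℂ} (hF : IsClosed F) (b : ℂ) :
    IsClosed (connectedComponentIn F b) := by
  by_cases hb : b ∈ F
  · rw [← closure_subset_iff_isClosed]
    exact (isPreconnected_connectedComponentIn.closure).subset_connectedComponentIn
      (subset_closure (mem_connectedComponentIn hb))
      (closure_minimal (connectedComponentIn_subset F b) hF)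
  · rw [connectedComponentIn_eq_empty hb]
    exact isClosed_empty

/-- the frontier of a component of a closed set lies in the frontier of the set -/
theorem frontier_comp {F : Set ℂ} (hF : IsClosed F) (b : ℂ) :
    frontier (connectedComponentIn F b) ⊆ frontier F := by
  intro x hx
  have hc := isClosed_comp hF b
  have hxC : x ∈ connectedComponentIn F b := hc.frontier_subset hx
  have hxF : x ∈ F := connectedComponentIn_subset F b hxC
  rw [hF.frontier_eq]
  refine ⟨hxF, fun hint => ?_⟩
  rw [hc.frontier_eq] at hx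
  refine hx.2 (mem_interior_iff_mem_nhds.2 ?_)
  have h1 : F ∈ 𝓝 x := mem_interior_iff_mem_nhds.1 hint
  have h2 := connectedComponentIn_mem_nhds h1
  rwa [← connectedComponentIn_eq hxC] at h2

theorem isPreconnected_far (R : ℝ) (hR : 0 ≤ R) : IsPreconnected {z : ℂ | R < ‖z‖} := by
  have hrank : 1 < Module.rank ℝ ℂ := by rw [Complex.rank_real_complex]; norm_num
  have h0 : IsPreconnected ({0}ᶜ : Set ℂ) := (isConnected_compl_singleton_of_one_lt_rank hrank 0).2
  have h1 : ((fun z : ℂ => z + (R / ‖z‖ : ℝ) • z) '' ({0}ᶜ : Set ℂ)) = {z : ℂ | R < ‖z‖} := by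
    ext w
    simp only [mem_image, mem_compl_iff, mem_singleton_iff, mem_ofPred_eq]
    constructor
    · rintro ⟨z, hz, rfl⟩
      have hz' : 0 < ‖z‖ := norm_pos_iff.2 hz
      have e : z + (R / ‖z‖ : ℝ) • z = ((1 + R / ‖z‖ : ℝ)) • z := by
        rw [add_smul, one_smul]
      rw [e, norm_smul, Real.norm_eq_abs, abs_of_nonneg (by positivity), add_mul, one_mul,
        div_mul_cancel₀ _ hz'.ne']
      linarith
    · intro hw
      have hw' : 0 < ‖w‖ := lt_of_le_of_lt hR hw
      have hd : 0 < 1 - R / ‖w‖ := by
        rw [sub_pos, div_lt_one hw']; exact hw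
      refine ⟨((1 - R / ‖w‖ : ℝ)) • w, ?_, ?_⟩
      · have : w ≠ 0 := norm_pos_iff.1 hw'
        exact smul_ne_zero hd.ne' this
      · have en : ‖((1 - R / ‖w‖ : ℝ)) • w‖ = ‖w‖ - R := by
          rw [norm_smul, Real.norm_eq_abs, abs_of_pos hd, sub_mul, one_mul,
            div_mul_cancel₀ _ hw'.ne']
        rw [en, smul_smul, ← add_smul]
        have hwR : ‖w‖ - R ≠ 0 := by linarith
        have : (1 - R / ‖w‖) + R / (‖w‖ - R) * (1 - R / ‖w‖) = 1 := by
          field_simp
          ring
        rw [this, one_smul]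
  rw [← h1]
  refine h0.image _ ?_
  have hd : ContinuousOn (fun z : ℂ => R / ‖z‖) ({0}ᶜ : Set ℂ) :=
    ContinuousOn.div continuousOn_const continuous_norm.continuousOn
      fun z hz => norm_ne_zero_iff.2 hz
  exact continuousOn_id.add (hd.smul continuousOn_id)

/-- all unbounded components of the complement of a bounded set are equal -/
theorem mem_far {K : Set ℂ} {R : ℝ} (hR : 0 ≤ R) (hK : ∀ z ∈ K, ‖z‖ ≤ R) {b z : ℂ} (hb : R < ‖b‖)
    (hz : ¬ Bornology.IsBounded (connectedComponentIn Kᶜ z)) : z ∈ connectedComponentIn Kᶜ b := by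
  have h1 : ∃ w ∈ connectedComponentIn Kᶜ z, R < ‖w‖ := by
    by_contra hcon
    push Not at hcon
    apply hz
    refine (Metric.isBounded_closedBall (x := (0 : ℂ)) (r := R)).subset fun w hw => ?_
    rw [mem_closedBall, dist_zero_right]
    exact hcon w hw
  obtain ⟨w, hw, hwR⟩ := h1
  have h2 : {z : ℂ | R < ‖z‖} ⊆ Kᶜ := fun v hv hvK => absurd (hK v hvK) (not_le.2 hv)
  have h3 := (isPreconnected_far R hR).subset_connectedComponentIn (x := b) hb h2
  have h4 : w ∈ connectedComponentIn Kᶜ b := h3 hwR
  have hzK : z ∈ Kᶜ := by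
    by_contra hcon
    rw [connectedComponentIn_eq_empty hcon] at hw
    exact hw
  rw [connectedComponentIn_eq h4, ← connectedComponentIn_eq hw]
  exact mem_connectedComponentIn hzK

variable {k : ℕ}

/-- **Topological core.**  `T` a closed cover, the tiles are bounded, no point of `X` lies in a
bounded component of the complement of a tile. -/
theorem top_aux {T : ℂ → Set (Fin k)} (hcl : ∀ i, IsClosed {x | i ∈ T x})
    (hne : ∀ x, (T x).Nonempty) {X N : Set ℂ} (hNc : IsClosed N) (hNX : N ⊆ X)
    (hbd : ∀ i x, T x = {i} → Bornology.IsBounded (connectedComponentIn {y | T y = {i}} x))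
    (hX : ∀ i x, T x = {i} → ∀ z ∈ X, z ∉ connectedComponentIn {y | T y = {i}} x ∧
      ¬ Bornology.IsBounded (connectedComponentIn (connectedComponentIn {y | T y = {i}} x)ᶜ z))
    (hloc : ∀ x ∈ N, ∀ᶠ y in 𝓝 x, (T y).Nontrivial → y ∈ N) (hN0 : N.Nonempty) : X ⊆ N := by
  classical
  -- the open sets of pure points
  have hG : ∀ i, IsOpen {y | T y = {i}} := by
    intro i
    have : {y | T y = {i}} = ⋂ j ∈ ({i}ᶜ : Set (Fin k)), {x | j ∈ T x}ᶜ := by
      ext y
      simp only [mem_ofPred_eq, mem_compl_iff, mem_singleton_iff, mem_iInter]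
      constructor
      · intro h j hj hjT
        rw [h] at hjT
        exact hj hjT
      · intro h
        ext j
        constructor
        · intro hj
          by_contra hji
          exact h j hji hj
        · intro hj
          obtain ⟨m, hm⟩ := hne y
          have : m = i := by
            by_contra hmi
            exact h m hmi hm
          rw [mem_singleton_iff.1 hj, ← this]
          exact hm
    rw [this]
    exact (toFinite _).isOpen_biInter fun j _ => (hcl j).isOpen_compl
  set BT : Set ℂ := {y | (T y).Nontrivial} with hBT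
  have hBTc : IsClosed BT := by
    have : BT = ⋃ i, ⋃ j ∈ ({i}ᶜ : Set (Fin k)), {x | i ∈ T x} ∩ {x | j ∈ T x} := by
      ext y
      simp only [hBT, mem_ofPred_eq, mem_iUnion, mem_compl_iff, mem_singleton_iff, mem_inter_iff,
        exists_prop]
      constructor
      · rintro ⟨i, hi, j, hj, hij⟩
        exact ⟨i, j, fun h => hij h.symm, hi, hj⟩
      · rintro ⟨i, j, hij, hi, hj⟩
        exact ⟨i, hi, j, hj, fun h => hij h.symm⟩
    rw [this]
    exact isClosed_iUnion_of_finite fun i =>
      (toFinite _).isClosed_biUnion fun j _ => (hcl i).inter (hcl j)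
  have hdich : ∀ y, y ∉ BT → ∃ i, T y = {i} := by
    intro y hy
    obtain ⟨i, hi⟩ := hne y
    exact ⟨i, (Set.not_nontrivial_iff.1 hy).eq_singleton_of_mem hi⟩
  -- the open set in which `BT` is `N`
  set O : Set ℂ := {x | ∀ᶠ y in 𝓝 x, y ∈ BT → y ∈ N} with hO
  have hOo : IsOpen O := isOpen_iff_eventually.2 fun x hx => by
    exact eventually_eventually_nhds.2 hx
  have hNO : N ⊆ O := fun x hx => hloc x hx
  have hOB : ∀ x ∈ O, x ∈ BT → x ∈ N := fun x hx hxB => hx.self_of_nhds hxB
  set M : Set ℂ := BT \ O with hM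
  have hMc : IsClosed M := hBTc.sdiff hOo
  have hNM : Disjoint N M := Set.disjoint_left.2 fun x hx hxM => hxM.2 (hNO hx)
  have hNM' : ∀ x ∈ BT, x ∈ N ∪ M := fun x hx => by
    by_cases hxO : x ∈ O
    · exact Or.inl (hOB x hxO hx)
    · exact Or.inr ⟨hx, hxO⟩
  -- data of a tile
  have tile : ∀ i x, T x = {i} → ∃ C : Set ℂ, IsClosed C ∧
      (∀ z, T z = {i} → z ∈ connectedComponentIn {y | T y = {i}} x → z ∉ C) ∧
      (∀ z ∈ X, z ∈ C) ∧ (∀ p ∈ frontier C, p ∈ BT) ∧
      ((∃ p ∈ frontier C, p ∈ N) → frontier C ⊆ N) := by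
    intro i x hx
    set K := connectedComponentIn {y | T y = {i}} x with hK
    have hKo : IsOpen K := (hG i).connectedComponentIn
    obtain ⟨R, hR⟩ := (hbd i x hx).subset_closedBall (0 : ℂ)
    have hKR : ∀ z ∈ K, ‖z‖ ≤ max R 0 := by
      intro z hz
      have := hR hz
      rw [mem_closedBall, dist_zero_right] at this
      exact this.trans (le_max_left _ _)
    set b : ℂ := ((max R 0 + 1 : ℝ) : ℂ) with hb
    have hbR : max R 0 < ‖b‖ := by
      rw [hb, Complex.norm_real, Real.norm_eq_abs, abs_of_pos]
      · linarith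
      · have := le_max_right R 0
        linarith
    set C := connectedComponentIn Kᶜ b with hC
    have hCc : IsClosed C := isClosed_comp hKo.isClosed_compl b
    have hfr : frontier C ⊆ frontier K := by
      have := frontier_comp hKo.isClosed_compl b
      rwa [frontier_compl] at this
    have hfK : ∀ p ∈ frontier K, p ∈ BT := by
      intro p hp
      by_contra hcon
      obtain ⟨j, hj⟩ := hdich p hcon
      have hpc : p ∈ closure K := hp.1
      by_cases hji : j = i
      · subst hji
        have h1 : connectedComponentIn {y | T y = {j}} p ∈ 𝓝 p :=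
          connectedComponentIn_mem_nhds ((hG j).mem_nhds hj)
        obtain ⟨q, hq1, hq2⟩ := mem_closure_iff_nhds.1 hpc _ h1
        have h2 : connectedComponentIn {y | T y = {j}} p = K := by
          rw [connectedComponentIn_eq hq1, hK, ← connectedComponentIn_eq hq2]
        have hpK : p ∈ K := by
          rw [← h2]
          exact mem_connectedComponentIn hj
        rw [hKo.frontier_eq] at hp
        exact hp.2 hpK
      · obtain ⟨q, hq1, hq2⟩ := mem_closure_iff_nhds.1 hpc _ ((hG j).mem_nhds hj)
        have h3 : T q = {i} := connectedComponentIn_subset {y | T y = {i}} x hq2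
        have h4 : T q = {j} := hq1
        rw [h3] at h4
        exact hji (singleton_eq_singleton_iff.1 h4).symm
    refine ⟨C, hCc, ?_, ?_, fun p hp => hfK p (hfr hp), ?_⟩
    · intro z _ hz hzC
      exact connectedComponentIn_subset _ _ hzC hz
    · intro z hz
      exact mem_far (le_max_right _ _) hKR hbR (hX i x hx z hz).2
    · rintro ⟨p, hp, hpN⟩ m hm
      by_contra hmN
      have hmM : m ∈ M := (hNM' m (hfK m (hfr hm))).resolve_left hmN
      have hAB : closure K ⊆ closure Cᶜ := closure_mono fun z hz hzC =>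
        connectedComponentIn_subset _ _ hzC hz
      have hBC : closure Cᶜ ∩ C ⊆ frontier C := by
        rintro q ⟨hq1, hq2⟩
        rw [frontier_eq_closure_inter_closure]
        exact ⟨subset_closure hq2, hq1⟩
      exact no_sep (A := closure K) (B := closure Cᶜ) (C := C) (N := N) (M := M)
        isClosed_closure hCc
        (by
          ext q
          simp only [mem_union, mem_univ, iff_true]
          by_cases hq : q ∈ C
          · exact Or.inr hq
          · exact Or.inl (subset_closure hq))
        isPreconnected_connectedComponentIn.closure hAB isPreconnected_connectedComponentIn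
        hNc hMc hNM (fun q hq => hNM' q (hfK q (hfr (hBC hq))))
        (hfr hp).1 (hCc.frontier_subset hp) hpN (hfr hm).1 (hCc.frontier_subset hm) hmM
  choose! C hCc hCK hCX hCB hCN using tile
  set Y : Set ℂ := N ∪ {y | ∃ i x, T x = {i} ∧ y ∉ C i x ∧ frontier (C i x) ⊆ N} with hY
  have hYo : IsOpen Y := by
    rw [isOpen_iff_mem_nhds]
    rintro y (hy | ⟨i, x, hx, hy, hf⟩)
    · obtain ⟨r, hr, hball⟩ := Metric.eventually_nhds_iff_ball.1 (hloc y hy)
      refine Metric.mem_nhds_iff.2 ⟨r, hr, fun w hw => ?_⟩
      by_cases hwN : w ∈ N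
      · exact Or.inl hwN
      right
      have hwB : w ∉ BT := fun h => hwN (hball w hw h)
      obtain ⟨i, hi⟩ := hdich w hwB
      have hwC : w ∉ C i w := hCK i w hi w hi (mem_connectedComponentIn hi)
      refine ⟨i, w, hi, hwC, hCN i w hi ?_⟩
      obtain ⟨p, hp1, hp2⟩ := meet_frontier (convex_ball y r).isPreconnected
        (mem_ball_self hr) (hCX i w hi y (hNX hy)) hw hwC
      exact ⟨p, hp2, hball p hp1 (hCB i w hi p hp2)⟩
    · refine Filter.mem_of_superset ((hCc i x hx).isOpen_compl.mem_nhds hy) fun w hw => ?_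
      exact Or.inr ⟨i, x, hx, hw, hf⟩
  have hYc : IsClosed Y := by
    rw [← isOpen_compl_iff, isOpen_iff_mem_nhds]
    intro y hy
    have hyN : y ∉ N := fun h => hy (Or.inl h)
    obtain ⟨r, hr, hball⟩ := Metric.mem_nhds_iff.1 (hNc.isOpen_compl.mem_nhds hyN)
    refine Metric.mem_nhds_iff.2 ⟨r, hr, fun w hw hwY => ?_⟩
    rcases hwY with hwN | ⟨i, x, hx, hwC, hf⟩
    · exact hball hw hwN
    · have hyC : y ∈ C i x := by
        by_contra hcon
        exact hy (Or.inr ⟨i, x, hx, hcon, hf⟩)
      obtain ⟨p, hp1, hp2⟩ := meet_frontier (convex_ball y r).isPreconnected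
        (mem_ball_self hr) hyC hw hwC
      exact hball hp1 (hf hp2)
  have hYu : Y = univ := by
    rcases isClopen_iff.1 ⟨hYc, hYo⟩ with h | h
    · obtain ⟨x, hx⟩ := hN0
      have : x ∈ Y := Or.inl hx
      rw [h] at this
      exact absurd this (notMem_empty x)
    · exact h
  intro z hz
  have hzY : z ∈ Y := by rw [hYu]; exact mem_univ z
  rcases hzY with h | ⟨i, x, hx, hzC, -⟩
  · exact h
  · exact absurd (hCX i x hx z hz) hzC

end Vale.Agent.P032.H671

namespace Vale.Agent.P032.Six

open Vale.Agent.P032.H671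

variable {k : ℕ} {U : Fin k → Set ℂ} {T : ℂ → Set (Fin k)}

/-- **No islands**, without a condition on the palette (249's proof). -/
theorem Irr.hull_all (h : Irr U T) {i : Fin k} {Q : Set ℂ} (hQ : IsPreconnected Q)
    (hsub : Q ⊆ U i) {x : ℂ} (hxQ : x ∉ Q)
    (hx : Bornology.IsBounded (connectedComponentIn Qᶜ x)) : x ∈ U i := by
  refine h.max i x fun y hy hxy => ?_
  have hrank : 1 < Module.rank ℝ ℂ := by rw [Complex.rank_real_complex]; norm_num
  have hS : IsPreconnected (sphere y (1 : ℝ)) := isPreconnected_sphere hrank y _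
  have hSQ : sphere y (1 : ℝ) ⊆ Qᶜ := by
    intro q hq hqQ
    exact h.mx.free i q (hsub hqQ) y hy hq
  have hSB : sphere y (1 : ℝ) ⊆ connectedComponentIn Qᶜ x :=
    hS.subset_connectedComponentIn hxy hSQ
  have hxx : x ∈ connectedComponentIn Qᶜ x := mem_connectedComponentIn hxQ
  -- `y` is the only point of `Q`
  have hone : ∀ p ∈ Q, p = y := by
    intro p hp
    by_contra hpy
    have hpy' : 0 < dist y p := dist_pos.2 (Ne.symm hpy)
    set u : ℂ := (y - p) / ((dist y p : ℝ) : ℂ) with hu
    have hune : ((dist y p : ℝ) : ℂ) ≠ 0 := by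
      exact_mod_cast hpy'.ne'
    have hun : ‖u‖ = 1 := by
      rw [hu, norm_div, Complex.norm_real, Real.norm_eq_abs, abs_of_pos hpy', ← dist_eq_norm,
        div_self hpy'.ne']
    have h1 : y + u ∈ sphere y (1 : ℝ) := by
      rw [mem_sphere, dist_eq_norm, add_sub_cancel_left, hun]
    have h2 : dist (y + u) p = 1 + dist y p := by
      have e : y + u - p = ((1 + dist y p : ℝ) : ℂ) * u := by
        have e1 : y - p = ((dist y p : ℝ) : ℂ) * u := by
          rw [hu, mul_div_cancel₀ _ hune]
        rw [Complex.ofReal_add, Complex.ofReal_one]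
        linear_combination e1
      rw [dist_eq_norm, e, norm_mul, hun, mul_one, Complex.norm_real, Real.norm_eq_abs,
        abs_of_pos (by linarith)]
    exact comp_unbounded zero_le_one
      ((h.conn_sub_ball hQ hsub hp).trans ball_subset_closedBall) (hSB h1)
      (by rw [h2]; linarith) hx
  have hQy : Q ⊆ closedBall y 0 := fun p hp => by
    rw [hone p hp]; exact mem_closedBall_self le_rfl
  exact comp_unbounded le_rfl hQy hxx (by rw [hxy]; exact zero_lt_one) hx


/-- **The essential set is connected** (frame `Irr U T`): a nonempty closed subset `N` of `XX U` such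
that near every point of `N` all points with at least two colours lie in `N` is `XX U`. -/
theorem Irr.XX_sub (h : Irr U T) {N : Set ℂ} (hNc : IsClosed N) (hNX : N ⊆ XX U)
    (hloc : ∀ x ∈ N, ∀ᶠ y in 𝓝 x, (T y).Nontrivial → y ∈ N) (hN0 : N.Nonempty) : XX U ⊆ N := by
  have hpure : ∀ i y, T y = {i} → y ∈ U i := by
    intro i y hy
    by_cases hyX : y ∈ XX U
    · obtain ⟨j, hj, hji⟩ := h.two hyX i
      rw [hy] at hj
      exact absurd hj hji
    · exact h.off y hyX i (by rw [hy]; exact mem_singleton i)
  have hsub : ∀ i x, connectedComponentIn {y | T y = {i}} x ⊆ U i := fun i x y hy =>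
    hpure i y (connectedComponentIn_subset {y | T y = {i}} x hy)
  refine top_aux h.closed h.ne hNc hNX ?_ ?_ hloc hN0
  · intro i x hx
    exact Metric.isBounded_ball.subset (h.conn_sub_ball isPreconnected_connectedComponentIn
      (hsub i x) (mem_connectedComponentIn hx))
  · intro i x hx z hz
    have hzK : z ∉ connectedComponentIn {y | T y = {i}} x := fun hcon => hz i (hsub i x hcon)
    refine ⟨hzK, fun hb => hz i ?_⟩
    exact h.hull_all isPreconnected_connectedComponentIn (hsub i x) hzK hb

end Vale.Agent.P032.Six
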