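import Vale.Agent.P032.H249.Hull

/-!
# P032: connected closed curves fill their inside

`Irr.fill` : if `Γ` is preconnected, `Γ ⊆ closure (U i)` and `x ∉ Γ` lies in a bounded component of the
complement of `Γ`, then `x ∈ U i` (410's rule (F2)); `Irr.fill_T` : the same for `i ∈ T` on `Γ`;
`Irr.no_inside` : so `x` is not in `XX U`, and no point at distance one from `x` has the colour `i`.
-/

open Set Filter Topology Metric

noncomputable section

namespace Vale.Agent.P032.Six

variable {k : ℕ} {U : Fin k → Set ℂ} {T : ℂ → Set (Fin k)}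

/-- **FILL.** -/
theorem Irr.fill (h : Irr U T) {i : Fin k} {Γ : Set ℂ} (hΓ : IsPreconnected Γ)
    (hsub : Γ ⊆ closure (U i)) {x : ℂ} (hxΓ : x ∉ Γ)
    (hx : Bornology.IsBounded (connectedComponentIn Γᶜ x)) : x ∈ U i := by
  refine h.max i x fun y hy hxy => ?_
  have hxx : x ∈ connectedComponentIn Γᶜ x := mem_connectedComponentIn hxΓ
  have hcross : ∀ t ∈ closure (U i), ∀ p ∈ Γ, ∀ q ∈ Γ, dist p t < 1 → ¬ 1 < dist q t :=
    fun t ht p hp q hq h1 h2 => h.mx.wlemma hΓ hsub hp hq h1 h2 ht
  by_cases hnear : ∃ p ∈ Γ, dist p y < 1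
  · obtain ⟨p, hp, hpy⟩ := hnear
    have hQ : Γ ⊆ closedBall y 1 := fun q hq => by
      rw [mem_closedBall]
      exact not_lt.1 (hcross y hy p hp q hq hpy)
    -- the ray beyond `x`
    have hseg : IsPreconnected ((fun s : ℝ => y + (s : ℂ) * (x - y)) '' Icc 1 2) :=
      isPreconnected_Icc.image _ (by fun_prop)
    have hdist : ∀ s : ℝ, 0 ≤ s → dist (y + (s : ℂ) * (x - y)) y = s := by
      intro s hs
      rw [dist_eq_norm, add_sub_cancel_left, norm_mul, Complex.norm_real, Real.norm_eq_abs,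
        abs_of_nonneg hs, ← dist_eq_norm, hxy, mul_one]
    have hsegQ : (fun s : ℝ => y + (s : ℂ) * (x - y)) '' Icc 1 2 ⊆ Γᶜ := by
      rintro _ ⟨s, hs, rfl⟩ hqΓ
      have h1 := hQ hqΓ
      rw [mem_closedBall, hdist s (by linarith [hs.1])] at h1
      have h2 : s = 1 := le_antisymm h1 hs.1
      subst h2
      apply hxΓ
      have e : y + ((1 : ℝ) : ℂ) * (x - y) = x := by push_cast; ring
      exact e ▸ hqΓ
    have hx1 : x ∈ (fun s : ℝ => y + (s : ℂ) * (x - y)) '' Icc 1 2 :=
      ⟨1, ⟨le_rfl, one_le_two⟩, by push_cast; ring⟩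
    have hb : y + ((2 : ℝ) : ℂ) * (x - y) ∈ connectedComponentIn Γᶜ x :=
      hseg.subset_connectedComponentIn hx1 hsegQ ⟨2, ⟨one_le_two, le_rfl⟩, rfl⟩
    exact comp_unbounded zero_le_one hQ hb (by rw [hdist 2 (by norm_num)]; norm_num) hx
  · push Not at hnear
    have hne : Γ.Nonempty := by
      by_contra hcon
      rw [not_nonempty_iff_eq_empty] at hcon
      subst hcon
      have hu : connectedComponentIn (∅ᶜ : Set ℂ) x = univ := by
        rw [compl_empty, connectedComponentIn_univ]
        exact PreconnectedSpace.connectedComponent_eq_univ x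
      rw [hu] at hx
      obtain ⟨C, hC⟩ := (Metric.isBounded_iff_subset_closedBall (0 : ℂ)).1 hx
      have h1 := hC (mem_univ (((|C| + 1 : ℝ) : ℂ)))
      rw [mem_closedBall, dist_zero_right, Complex.norm_real, Real.norm_eq_abs,
        abs_of_pos (by positivity)] at h1
      have := le_abs_self C
      linarith
    obtain ⟨g, hg⟩ := hne
    have hQ : Γ ⊆ closedBall g 1 := fun q hq => by
      rw [mem_closedBall]
      exact not_lt.1 (hcross g (hsub hg) g hg q hq (by rw [dist_self]; norm_num))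
    have hgy : 1 ≤ dist g y := hnear g hg
    have hd : 0 < dist g y := by linarith
    have hW : IsPreconnected (insert x (ball y 1)) := by
      refine (convex_ball y 1).isPreconnected.subset_closure (subset_insert _ _) ?_
      rw [closure_ball y one_ne_zero]
      intro q hq
      rcases hq with rfl | hq
      · rw [mem_closedBall, hxy]
      · exact ball_subset_closedBall hq
    have hWQ : insert x (ball y 1) ⊆ Γᶜ := by
      rintro q (rfl | hq) hqΓ
      · exact hxΓ hqΓ
      · exact absurd (hnear q hqΓ) (not_le.2 hq)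
    -- a point of the disc far from `g`
    set u : ℂ := (y - g) / ((dist g y : ℝ) : ℂ) with hu
    have hdc : ((dist g y : ℝ) : ℂ) ≠ 0 := by exact_mod_cast hd.ne'
    have hun : ‖u‖ = 1 := by
      rw [hu, norm_div, Complex.norm_real, Real.norm_eq_abs, abs_of_pos hd, ← dist_eq_norm,
        dist_comm y g, div_self hd.ne']
    have hbm : y + ((1 / 2 : ℝ) : ℂ) * u ∈ ball y 1 := by
      rw [mem_ball, dist_eq_norm, add_sub_cancel_left, norm_mul, Complex.norm_real, hun,
        Real.norm_eq_abs, abs_of_pos (by norm_num)]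
      norm_num
    have hbd : dist (y + ((1 / 2 : ℝ) : ℂ) * u) g = dist g y + 1 / 2 := by
      have e : y + ((1 / 2 : ℝ) : ℂ) * u - g = ((dist g y + 1 / 2 : ℝ) : ℂ) * u := by
        have e1 : y - g = ((dist g y : ℝ) : ℂ) * u := by
          rw [hu, mul_div_cancel₀ _ hdc]
        push_cast
        linear_combination e1
      rw [dist_eq_norm, e, norm_mul, Complex.norm_real, hun, mul_one, Real.norm_eq_abs,
        abs_of_pos (by linarith)]
    have hb : y + ((1 / 2 : ℝ) : ℂ) * u ∈ connectedComponentIn Γᶜ x :=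
      hW.subset_connectedComponentIn (mem_insert _ _) hWQ (mem_insert_of_mem _ hbm)
    exact comp_unbounded zero_le_one hQ hb (by rw [hbd]; linarith) hx

theorem Irr.fill_T (h : Irr U T) {i : Fin k} {Γ : Set ℂ} (hΓ : IsPreconnected Γ)
    (hi : ∀ p ∈ Γ, i ∈ T p) {x : ℂ} (hxΓ : x ∉ Γ)
    (hx : Bornology.IsBounded (connectedComponentIn Γᶜ x)) : x ∈ U i :=
  h.fill hΓ (fun p hp => h.sub p (hi p hp)) hxΓ hx

/-- no point of `XX U`, and no point with an `i`-neighbour at distance one, lies inside an `i`-curve -/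
theorem Irr.no_inside (h : Irr U T) {i : Fin k} {Γ : Set ℂ} (hΓ : IsPreconnected Γ)
    (hi : ∀ p ∈ Γ, i ∈ T p) {x : ℂ} (hxΓ : x ∉ Γ)
    (hx : x ∈ XX U ∨ ∃ y, dist x y = 1 ∧ y ∈ closure (U i)) :
    ¬ Bornology.IsBounded (connectedComponentIn Γᶜ x) := by
  intro hb
  have h1 := h.fill_T hΓ hi hxΓ hb
  rcases hx with hx | ⟨y, hxy, hy⟩
  · exact hx i h1
  · exact h.mx.free i x h1 y hy hxy

end Vale.Agent.P032.Six
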